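import Vale.Agent.P181.PL508.Common
import Vale.Agent.P181.DU.Defs2

set_option autoImplicit false

/-!
# P181, DU, version W: only `2 a ≤ w` and a large `D_2` of the strip shape
-/

namespace Vale.Agent.P181.DU.W924

open Vale.Agent.P181.T4 (ex low)
open Vale.Agent.P181.H280 (plethMult)
open Vale.Agent.P181.H463 (gt)
open Vale.Agent.P181.PL Vale.Agent.P181.PL508

/-- The cells below row `j` of the shape without the strip. -/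
def En {n : ℕ} (a : ℕ) (lam : Fin n → ℕ) (j : ℕ) : ℕ :=
  dn lam j + min a (ex lam 1 - ex lam j) - a

/-- The row `j` of the shape without the strip. -/
def Xn {n : ℕ} (a : ℕ) (lam : Fin n → ℕ) (j : ℕ) : ℕ := En a lam j - En a lam (j + 1)

/-- **the strip** -/
lemma exists_nuW {n : ℕ} (hn : 2 ≤ n) {lam : Fin n → ℕ} (h : Antitone lam) {a T : ℕ}
    (ha : a ≤ ex lam 1) (hT : dn lam 1 + ex lam 1 ≤ T + a) :
    ∃ nu : Fin n → ℕ, Antitone nu ∧ ∑ i, nu i = T ∧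
      (∀ i : Fin n, 1 ≤ (i : ℕ) → nu i ≤ lam i) ∧
      (∀ i : Fin n, 1 ≤ (i : ℕ) → ex lam ((i : ℕ) + 1) ≤ nu i) ∧
      dn lam 1 = dn nu 1 + a ∧
      (∀ j, 1 ≤ j → dn nu j = En a lam j) ∧ (∀ j, 1 ≤ j → ex nu j = Xn a lam j) := by
  obtain ⟨nu, hnu, hnusum, hnu1, hnu2, hnu3, hnu4, _⟩ := exists_nu hn h ha hT
  have hE : ∀ j, 1 ≤ j → dn nu j = En a lam j := by
    intro j hj
    unfold En
    rcases hnu4 j hj with e | e
    · omega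
    · rw [dn_ge nu e.le, dn_ge lam e.le, exge lam e.le]
      omega
  refine ⟨nu, hnu, hnusum, hnu1, hnu2, hnu3, hE, fun j hj => ?_⟩
  unfold Xn
  rw [← hE j hj, ← hE (j + 1) (by omega)]
  have := dn_succ nu j
  omega

lemma En_two {n : ℕ} {lam : Fin n → ℕ} {a M : ℕ} (h : Antitone lam) (h1 : a ≤ ex lam 1)
    (h2 : M ≤ dn lam 2) (h3 : M + a + ex lam 2 ≤ dn lam 1) : M ≤ En a lam 2 := by
  unfold En
  have e1 := dn_succ lam 1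
  have e4 : dn lam (1 + 1) = dn lam 2 := rfl
  have e5 : ex lam 2 ≤ ex lam 1 := exanti h (by norm_num)
  omega

/-- The hypotheses at the diagonal: `DG.HyD` with `a * a + X w ≤ a b` instead of
`w ≤ (b - a) ^ 2`, and
`2 a ≤ w`, `w X ^ 6000 ≤ (w - a - λ_3) ^ 2` instead of `3 a ≤ w`. -/
def HyW (a b n X : ℕ) (lam : Fin n → ℕ) : Prop :=
  Antitone lam ∧ ∑ i, lam i = a * b ∧ (∀ i, 0 < lam i) ∧ n ≤ a ∧ a ≤ b ∧ b ≤ 5 * a ∧
    a * a + X * dn lam 1 ≤ a * b ∧ X ^ 20000 ≤ a ∧ 10 ^ 12 * (1 + Real.log a) ^ 7 ≤ X ∧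
    dn lam 1 * X ^ 6000 ≤ dn lam 2 ^ 2 ∧ a < ex lam 1 ∧
    dn lam 1 * X ^ 6000 ≤ (dn lam 1 - a - ex lam 2) ^ 2 ∧ 2 * a ≤ dn lam 1 ∧
    dn lam 1 * X ^ 13000 ≤ a ^ 2

/-- the numbers `Z`, `K` -/
lemma commonW {a b n X : ℕ} {lam : Fin n → ℕ} (h : HyW a b n X lam) :
    1 ≤ a ∧ 10 ^ 12 ≤ X ∧ 10 ^ 12 * Real.log a ≤ X ∧ 10 ^ 12 * (1 + Real.log a) ^ 6 ≤ X ∧
    dn lam 1 + 1 ≤ a ^ 2 ∧ dn lam 2 ≤ dn lam 1 ∧ 2 * a ≤ dn lam 1 ∧
    ∃ Z K, Z ^ 2 ≤ dn lam 1 ∧ dn lam 1 < (Z + 1) ^ 2 ∧ X ^ 9999 ≤ Z ∧ Z * X ^ 2 < a ∧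
      Z * X ^ 6500 ≤ a ∧ Z * X ^ 3000 ≤ En a lam 2 ∧ a * a + (6 * K + 2) * dn lam 1 ≤ a * b ∧
      1 ≤ K ∧ 128 * K + 128 ≤ X ∧ 1000 * K ≤ X ∧ 4 * dn lam 1 ≤ X ^ K ∧
      100 * K * ((Z + 1) * X) ≤ a := by
  obtain ⟨hanti, hsum, _, hna, hab, hab5, hdiag, hXa, hlog, hbD, h1, hbW, h2w, hw⟩ := h
  have ha : 1 ≤ a := by
    by_contra hcon
    have : a = 0 := by omega
    subst this
    rw [zero_mul] at hsum
    have h2 := ex_le_dn lam 1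
    have h3 := dn_anti lam (Nat.zero_le 1)
    rw [dn_zero, hsum] at h3
    omega
  obtain ⟨hX, hl1, hl6, K, hK1, hK2, hK3⟩ := X_facts ha hlog
  have hdn1 : dn lam 1 = ex lam 1 + dn lam 2 := dn_succ lam 1
  have hEn : ∀ M, M ≤ dn lam 2 → M + a + ex lam 2 ≤ dn lam 1 → M ≤ En a lam 2 :=
    fun M => En_two hanti h1.le
  obtain ⟨w, hwdef⟩ : ∃ w, w = dn lam 1 := ⟨_, rfl⟩
  rw [← hwdef] at hw h2w hdn1 hbD hbW hdiag hEn ⊢
  have hX1 : 1 ≤ X := le_trans (by norm_num) hX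
  have hXX : X ≤ X ^ 13000 := Nat.le_self_pow (by norm_num) X
  have hwa : w + 1 ≤ a ^ 2 := by
    have : w * 2 ≤ w * X ^ 13000 := Nat.mul_le_mul_left _ (by omega)
    omega
  obtain ⟨Z, hZ⟩ : ∃ Z, Z = Nat.sqrt w := ⟨_, rfl⟩
  have hZ1 : Z ^ 2 ≤ w := by
    rw [hZ]
    exact Nat.sqrt_le' w
  have hZ2 : w < (Z + 1) ^ 2 := by
    rw [hZ]
    exact Nat.lt_succ_sqrt' w
  have hZa : Z * X ^ 6500 ≤ a := by
    have h2 : (Z * X ^ 6500) ^ 2 ≤ a ^ 2 := by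
      calc (Z * X ^ 6500) ^ 2 = Z ^ 2 * X ^ 13000 := by ring
        _ ≤ w * X ^ 13000 := Nat.mul_le_mul_right _ hZ1
        _ ≤ a ^ 2 := hw
    exact (Nat.pow_le_pow_iff_left (by norm_num)).1 h2
  have hZX : X ^ 9999 ≤ Z := by
    by_contra hcon
    have h2 : Z + 1 ≤ X ^ 9999 := by omega
    have h3 : (Z + 1) ^ 2 ≤ (X ^ 9999) ^ 2 := Nat.pow_le_pow_left h2 2
    have h5 : (X ^ 9999) ^ 2 ≤ X ^ 20000 := by
      rw [← pow_mul]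
      exact Nat.pow_le_pow_right hX1 (by norm_num)
    omega
  have hZpos : 1 ≤ Z := (Nat.one_le_pow _ _ hX1).trans hZX
  have h7 : 2 * (Z * X ^ 2) ≤ a := by
    refine le_trans ?_ hZa
    calc 2 * (Z * X ^ 2) = Z * (2 * X ^ 2) := by ring
      _ ≤ Z * (X * X ^ 2) := Nat.mul_le_mul_left _ (Nat.mul_le_mul_right _ (by omega))
      _ = Z * X ^ 3 := by ring
      _ ≤ Z * X ^ 6500 := Nat.mul_le_mul_left _ (Nat.pow_le_pow_right hX1 (by norm_num))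
  have h8 : 1 ≤ Z * X ^ 2 := Nat.mul_pos hZpos (Nat.one_le_pow _ _ hX1)
  have hKX : (6 * K + 2) * w ≤ X * w := Nat.mul_le_mul_right _ (by omega)
  refine ⟨ha, hX, hl1, hl6, hwa, by omega, h2w, Z, K, hZ1, hZ2, hZX, by omega, hZa, ?_,
    by omega, hK1, by omega, hK2, ?_, ?_⟩
  · have h2 : (Z * X ^ 3000) ^ 2 ≤ w * X ^ 6000 := by
      calc (Z * X ^ 3000) ^ 2 = Z ^ 2 * X ^ 6000 := by ring
        _ ≤ w * X ^ 6000 := Nat.mul_le_mul_right _ hZ1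
    have h3 : Z * X ^ 3000 ≤ dn lam 2 :=
      (Nat.pow_le_pow_iff_left (by norm_num)).1 (h2.trans hbD)
    have h4 : Z * X ^ 3000 ≤ w - a - ex lam 2 :=
      (Nat.pow_le_pow_iff_left (by norm_num)).1 (h2.trans hbW)
    have h5 : 1 ≤ Z * X ^ 3000 := Nat.mul_pos hZpos (Nat.one_le_pow _ _ hX1)
    exact hEn _ h3 (by omega)
  · have h2 : a ^ 2 ≤ a ^ 3 := Nat.pow_le_pow_right ha (by norm_num)
    have h3 : 2 ^ K ≤ X ^ K := Nat.pow_le_pow_left (by omega) K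
    omega
  · have h4 : 2 * X ^ 2 ≤ a := by
      calc 2 * X ^ 2 ≤ X * X ^ 2 := Nat.mul_le_mul_right _ (by omega)
        _ = X ^ 3 := by ring
        _ ≤ X ^ 20000 := Nat.pow_le_pow_right hX1 (by norm_num)
        _ ≤ a := hXa
    have h5 : 10 * (100 * K * ((Z + 1) * X)) ≤ X * ((Z + 1) * X) := by
      calc 10 * (100 * K * ((Z + 1) * X)) = 1000 * K * ((Z + 1) * X) := by ring
        _ ≤ X * ((Z + 1) * X) := Nat.mul_le_mul_right _ hK2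
    have h6 : X * ((Z + 1) * X) = Z * X ^ 2 + X ^ 2 := by ring
    omega

/-- the extra hypothesis of `AsmR` -/
lemma zx2 {a X Z : ℕ} (hX : 10 ^ 12 ≤ X) (hZ : 1 ≤ Z) (h : Z * X ^ 6500 ≤ a) :
    Z * X ^ 2 + 2 ≤ a := by
  have hX1 : 1 ≤ X := le_trans (by norm_num) hX
  have h2 : 2 * (Z * X ^ 2) ≤ a := by
    refine le_trans ?_ h
    calc 2 * (Z * X ^ 2) = Z * (2 * X ^ 2) := by ring
      _ ≤ Z * (X * X ^ 2) := Nat.mul_le_mul_left _ (Nat.mul_le_mul_right _ (by omega))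
      _ = Z * X ^ 3 := by ring
      _ ≤ Z * X ^ 6500 := Nat.mul_le_mul_left _ (Nat.pow_le_pow_right hX1 (by norm_num))
  have h3 : 1 * 2 ≤ Z * X ^ 2 := by
    apply Nat.mul_le_mul hZ
    have := Nat.pow_le_pow_right hX1 (show 1 ≤ 2 by norm_num)
    rw [pow_one] at this
    omega
  omega

end Vale.Agent.P181.DU.W924
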