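import Vale.Agent.P181.DU9.H924.W.Heavy3
import Vale.Agent.P181.DU9.H924.W.Heavy4
import Vale.Agent.P181.DU9.H924.W.Light
import Vale.Agent.P181.DG9.H924.E.Main
import Vale.Agent.P181.PL10.Lin
import Vale.Agent.P181.H536.HW

set_option autoImplicit false

/-!
# P181, DU, version W: the scan over `R` and the theorem at the diagonal
-/

namespace Vale.Agent.P181.DU.W924

open Vale.Agent.P181.T4 (ex low)
open Vale.Agent.P181.H280 (plethMult)
open Vale.Agent.P181.PL Vale.Agent.P181.DG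
open Vale.Agent.P181.SZ (LBC LBR)

/-- `a ≤ 1`. -/
lemma low_a {a b n : ℕ} (hab : a ≤ b) (ha : a ≤ 1) (lam : Fin n → ℕ) :
    plethMult a b n lam ≤ plethMult b a n lam := by
  by_cases hz : plethMult a b n lam = 0
  · rw [hz]
    exact Nat.zero_le _
  obtain ⟨hanti, hsum, hza⟩ := H530.zero_stmt a b n lam hz
  apply DG.E924.sec hab lam hanti
  rcases Nat.lt_or_ge 1 n with hn | hn
  · rw [exlt lam hn, hza ⟨1, hn⟩ ha]
    exact Nat.zero_le _
  · rw [exge lam hn]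
    exact Nat.zero_le _

/-- The first spread row of the shape without the strip. -/
lemma exists_RW {a b n X : ℕ} {lam : Fin n → ℕ} (hanti : Antitone lam)
    (hsum : ∑ i, lam i = a * b) (h1 : a < ex lam 1) (ha : 1 ≤ a) (hb : b ≤ a ^ 2)
    (hX : 10 ^ 12 * (1 + Real.log a) ^ 7 ≤ (X : ℝ)) :
    ∃ R, 3 ≤ R ∧ R ≤ X ^ 14 ∧ X ^ 13 * Xn a lam R ≤ En a lam R ∧
      (n ≤ R → En a lam R = 0) ∧ En a lam 2 ≤ En a lam R + (R - 2) * Xn a lam 2 := by
  have hn : 2 ≤ n := by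
    by_contra hcon
    rw [exge lam (by omega)] at h1
    omega
  have hT : dn lam 1 + ex lam 1 ≤ a * b + a := by
    have e1 := dn_succ lam 0
    have e2 : dn lam (0 + 1) = dn lam 1 := rfl
    have e3 : ex lam 1 ≤ ex lam 0 := exanti hanti (by norm_num)
    rw [dn_zero, hsum] at e1
    omega
  obtain ⟨nu, hnu, hnusum, _, _, _, hnuE, hnuX⟩ := exists_nuW hn hanti h1.le hT
  obtain ⟨R, hR3, hRX, hs⟩ := PL10.exists_R nu hnusum ha hb hX
  rw [hnuE R (by omega), hnuX R (by omega)] at hs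
  refine ⟨R, hR3, hRX, hs, fun h => ?_, ?_⟩
  · rw [← hnuE R (by omega)]
    exact dn_ge nu h
  · have h3 := dn_le hnu 2 (R - 2)
    rw [show 2 + (R - 2) = R by omega, hnuE R (by omega), hnuE 2 (by norm_num),
      hnuX 2 (by norm_num)] at h3
    exact h3

/-- The scan over `R`. -/
theorem scanW (hA : AsmV) (hL : LBL) (hI : LBI) (hC : LBC) (hR' : LBR) {a b n X : ℕ}
    {lam : Fin n → ℕ} (h : HyW a b n X lam) :
    plethMult a b n lam ≤ plethMult b a n lam := by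
  have hy := h
  obtain ⟨hanti, hsum, hpos, hna, hab, hab5, hdiag, haX, hX, hD2, h1, hD3, h2a, hw⟩ := h
  obtain ⟨hX1, hX12⟩ := PL10.X_ge hX
  have hX0 : 0 < X := by omega
  have ha5 : 5 ≤ a := by
    have e1 : X ≤ X ^ 20000 := Nat.le_self_pow (by norm_num) X
    omega
  have hb : b ≤ a ^ 2 := by
    have e1 : 5 * a ≤ a * a := Nat.mul_le_mul_right _ ha5
    rw [sq]
    omega
  obtain ⟨R, hR3, hRX, hs, hRn', hle⟩ := exists_RW hanti hsum h1 (by omega) hb hX
  rcases le_or_gt (X ^ 2550 * En a lam R) (Xn a lam 2) with hl | hl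
  · exact lightW hA hC hR' hy hR3 hRX hl
  have hRn : R < n := by
    by_contra h
    rw [hRn' (by omega), mul_zero] at hl
    omega
  have hDR : En a lam 2 ≤ X ^ 2600 * En a lam R := by
    calc En a lam 2 ≤ En a lam R + (R - 2) * Xn a lam 2 := hle
      _ ≤ 1 * En a lam R + X ^ 14 * (X ^ 2550 * En a lam R) := by
          rw [one_mul]
          exact Nat.add_le_add_left (Nat.mul_le_mul (by omega) hl.le) _
      _ = (1 + X ^ 2564) * En a lam R := by
          rw [show (2564 : ℕ) = 14 + 2550 by norm_num, pow_add]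
          ring
      _ ≤ X ^ 2600 * En a lam R := by
          apply Nat.mul_le_mul_right
          calc 1 + X ^ 2564 ≤ X ^ 2564 + X ^ 2564 :=
                Nat.add_le_add_right (Nat.one_le_pow _ _ hX0) _
            _ = 2 * X ^ 2564 := by ring
            _ ≤ X * X ^ 2564 := Nat.mul_le_mul_right _ (by omega)
            _ = X ^ (2564 + 1) := (pow_succ' _ _).symm
            _ ≤ X ^ 2600 := Nat.pow_le_pow_right hX0 (by norm_num)
  rcases le_or_gt (X ^ 2 * En a lam 2) (dn lam 1) with hd | hd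
  · exact heavy3W hL hA hy hR3 hRn hs hDR hd
  · exact heavy4W hI hA hy hR3 hRn hRX hs hDR hd

/-- The alternatives of the theorem. -/
def Alt (P : ℝ) (a b : ℕ) {n : ℕ} (lam : Fin n → ℕ) : Prop :=
  dn lam 1 ≤ b ∨ (P * (dn lam 1 : ℝ) ≤ (a : ℝ) * ((b : ℝ) - a) ∧ 2 * a ≤ dn lam 1 ∧
    P * (dn lam 1 : ℝ) ≤ (a : ℝ) ^ 2 ∧
    (dn lam 2 + a ≤ b + 1 ∨ P * (dn lam 1 : ℝ) ≤ (dn lam 2 : ℝ) ^ 2 ∧
      P * (dn lam 1 : ℝ) ≤ ((dn lam 1 : ℝ) - a - ex lam 2) ^ 2))

/-- **The theorem at the diagonal, version W.** -/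
def DiagW : Prop := ∃ (C : ℝ) (c : ℕ), 0 < C ∧ ∀ a b : ℕ, a ≤ b →
  ∀ (n : ℕ) (lam : Fin n → ℕ), Alt (C * (1 + Real.log a) ^ c) a b lam →
  plethMult a b n lam ≤ plethMult b a n lam

/-- The last step with general exponents. -/
theorem diag_gen (p q m : ℕ) (H : ∀ (a b n X : ℕ) (lam : Fin n → ℕ), Antitone lam →
    ∑ i, lam i = a * b → (∀ i, 0 < lam i) → n ≤ a → a ≤ b → b ≤ 5 * a → X ^ p ≤ a →
    10 ^ 12 * (1 + Real.log a) ^ m ≤ X → a * a + X * dn lam 1 ≤ a * b →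
    dn lam 1 * X ^ q ≤ dn lam 2 ^ 2 → a < ex lam 1 →
    dn lam 1 * X ^ q ≤ (dn lam 1 - a - ex lam 2) ^ 2 → 2 * a ≤ dn lam 1 →
    dn lam 1 * X ^ q ≤ a ^ 2 → plethMult a b n lam ≤ plethMult b a n lam)
    (hLin : H467.NT.LinS) :
    ∃ (C : ℝ) (c : ℕ), 0 < C ∧ ∀ a b : ℕ, a ≤ b → ∀ (n : ℕ) (lam : Fin n → ℕ),
      Alt (C * (1 + Real.log a) ^ c) a b lam → plethMult a b n lam ≤ plethMult b a n lam := by
  obtain ⟨K, hK⟩ : ∃ K : ℝ, K = 2 * 10 ^ 12 := ⟨_, rfl⟩
  have hK0 : 0 < K := by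
    rw [hK]
    norm_num
  obtain ⟨A0, hA0⟩ := PL10.ev K hK0 m p
  obtain ⟨C0, c0, hC0, hlin⟩ := hLin
  have hKq : 0 < K ^ q := pow_pos hK0 _
  refine ⟨C0 + K ^ q + K + ((A0 : ℝ) + 2) ^ 2, c0 + (m * q + m), by positivity, ?_⟩
  intro a b hab n lam hcase
  have hlog : 0 ≤ Real.log a := Real.log_natCast_nonneg a
  have hL1 : (1 : ℝ) ≤ 1 + Real.log a := by linarith
  have hLc : (1 : ℝ) ≤ (1 + Real.log a) ^ c0 := one_le_pow₀ hL1
  have hLq : (1 : ℝ) ≤ (1 + Real.log a) ^ (m * q) := one_le_pow₀ hL1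
  have hLm : (1 : ℝ) ≤ (1 + Real.log a) ^ m := one_le_pow₀ hL1
  have hdw : (0 : ℝ) ≤ (dn lam 1 : ℝ) := Nat.cast_nonneg _
  have hA2 : (0 : ℝ) ≤ ((A0 : ℝ) + 2) ^ 2 := by positivity
  rw [pow_add, pow_add] at hcase
  obtain ⟨D, hD⟩ : ∃ D : ℝ, D = (C0 + K ^ q + K + ((A0 : ℝ) + 2) ^ 2) *
      ((1 + Real.log a) ^ c0 * ((1 + Real.log a) ^ (m * q) * (1 + Real.log a) ^ m)) := ⟨_, rfl⟩
  rw [← hD] at hcase
  have hP : (0 : ℝ) < C0 + K ^ q + K + ((A0 : ℝ) + 2) ^ 2 := by positivity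
  -- the constant dominates the constants
  have hc1 : C0 * (1 + Real.log a) ^ c0 ≤ D := by
    rw [hD]
    apply mul_le_mul _ (le_mul_of_one_le_right (by positivity)
      (one_le_mul_of_one_le_of_one_le hLq hLm)) (by positivity) hP.le
    linarith
  have hc2 : K ^ q * (1 + Real.log a) ^ (m * q) ≤ D := by
    rw [hD]
    apply mul_le_mul _ _ (by positivity) hP.le
    · linarith
    · refine le_trans ?_ (le_mul_of_one_le_left (by positivity) hLc)
      exact le_mul_of_one_le_right (by positivity) hLm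
  have hc3 : K * (1 + Real.log a) ^ m ≤ D := by
    rw [hD]
    apply mul_le_mul _ _ (by positivity) hP.le
    · linarith
    · refine le_trans ?_ (le_mul_of_one_le_left (by positivity) hLc)
      exact le_mul_of_one_le_left (by positivity) hLq
  have hc4 : ((A0 : ℝ) + 2) ^ 2 ≤ D := by
    rw [hD]
    have h1 : (1 : ℝ) ≤ (1 + Real.log a) ^ c0 *
        ((1 + Real.log a) ^ (m * q) * (1 + Real.log a) ^ m) :=
      one_le_mul_of_one_le_of_one_le hLc (one_le_mul_of_one_le_of_one_le hLq hLm)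
    refine le_trans ?_ (le_mul_of_one_le_right hP.le h1)
    linarith
  clear hD
  have hD0 : 0 ≤ D := hA2.trans hc4
  by_cases hz : plethMult a b n lam = 0
  · rw [hz]
    exact Nat.zero_le _
  obtain ⟨hanti', _, _⟩ := H530.zero_stmt a b n lam hz
  clear hz
  rcases lt_or_ge a (A0 + 2) with ha | ha
  · -- small `a`
    rcases le_or_gt (ex lam 1) a with h1 | h1
    · exact DG.E924.sec hab lam hanti' h1
    have hne : dn lam 1 ≠ 0 := by
      have := ex_le_dn lam 1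
      omega
    rcases hcase with h | ⟨_, _, h, _⟩
    · have e1 := dn_succ lam 1
      have e4 : dn lam (1 + 1) = dn lam 2 := rfl
      have hk : 2 ≤ n := by
        by_contra hcon
        rw [exge lam (by omega)] at h1
        omega
      obtain ⟨j, rfl⟩ : ∃ j, n = j + 2 := ⟨n - 2, by omega⟩
      rcases Nat.lt_or_ge a 2 with ha2 | ha2
      · exact low_a hab (by omega) lam
      · exact DG.E924.few_two lam ha2 (by omega)
    · exfalso
      have h1 : (1 : ℝ) ≤ dn lam 1 := by exact_mod_cast Nat.one_le_iff_ne_zero.2 hne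
      have h2 : (a : ℝ) ^ 2 < ((A0 : ℝ) + 2) ^ 2 := by
        have : (a : ℝ) < (A0 : ℝ) + 2 := by exact_mod_cast ha
        exact pow_lt_pow_left₀ this (Nat.cast_nonneg _) (by norm_num)
      have h7 := le_mul_of_one_le_right hD0 h1
      linarith
  refine PL10.trimQ lam fun k mu hanti hsum hpos hka hdn => ?_
  rcases le_or_gt (ex mu 1) a with h1 | h1
  · exact DG.E924.sec hab mu hanti h1
  have hk : 2 ≤ k := by
    by_contra hcon
    rw [exge mu (by omega)] at h1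
    omega
  obtain ⟨j, rfl⟩ : ∃ j, k = j + 2 := ⟨k - 2, by omega⟩
  rcases Nat.lt_or_ge (b + 1) (dn mu 2 + a) with h2 | h2
  swap
  · exact DG.E924.few_two mu (by omega) h2
  have e1 := dn_succ mu 1
  rw [hdn 1, hdn (1 + 1)] at e1
  rw [hdn 2] at h2
  have e4 : dn lam (1 + 1) = dn lam 2 := rfl
  rcases hcase with h | ⟨hbX, hw2, hwa, hDD⟩
  · exfalso
    omega
  rcases hDD with h | ⟨hDD, hDE⟩
  · exfalso
    omega
  rcases le_or_gt (5 * a) b with hb5 | hb5
  · apply hlin a b hb5 (j + 2) mu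
    rw [hdn 1]
    exact (mul_le_mul_of_nonneg_right hc1 hdw).trans hwa
  obtain ⟨X, hX1, hX2⟩ := PL10.exists_X a m
  rw [← hK] at hX2
  have hX0 : (0 : ℝ) ≤ X := Nat.cast_nonneg X
  have hwq : ∀ A : ℝ, D * (dn lam 1 : ℝ) ≤ A → (dn lam 1 : ℝ) * (X : ℝ) ^ q ≤ A := fun A hA =>
    PL10.num_q q m hdw hX0 hX2 ((mul_le_mul_of_nonneg_right hc2 hdw).trans hA)
  have hex2 : ex lam 2 = ex mu 2 := by
    have f1 := dn_succ lam 2
    have f2 := dn_succ mu 2
    rw [hdn 2, hdn (2 + 1)] at f2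
    omega
  have hex21 : a + ex mu 2 ≤ dn lam 1 := by
    have f1 : ex mu 2 ≤ ex mu 1 := exanti hanti (by norm_num)
    have f2 := ex_le_dn mu 2
    rw [hdn 2] at f2
    omega
  refine H a b (j + 2) X mu hanti hsum hpos hka hab hb5.le ?_ hX1 ?_ ?_ h1 ?_ ?_ ?_
  · have h1 : (X : ℝ) ^ p ≤ (K * (1 + Real.log a) ^ m) ^ p :=
      pow_le_pow_left₀ (Nat.cast_nonneg _) hX2 _
    have h2 := h1.trans (hA0 a (by omega))
    rw [← Nat.cast_pow] at h2
    exact Nat.cast_le.1 h2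
  · have h3 : ((a * a + X * dn mu 1 : ℕ) : ℝ) ≤ ((a * b : ℕ) : ℝ) := by
      rw [hdn 1]
      push_cast
      have h5 : (X : ℝ) * (dn lam 1 : ℝ) ≤ D * (dn lam 1 : ℝ) :=
        mul_le_mul_of_nonneg_right (hX2.trans hc3) hdw
      linarith
    exact Nat.cast_le.1 h3
  · have h3 := hwq _ hDD
    rw [hdn 1, hdn 2]
    rw [← Nat.cast_pow, ← Nat.cast_pow, ← Nat.cast_mul] at h3
    exact Nat.cast_le.1 h3
  · have h3 := hwq _ hDE
    rw [hdn 1]
    have h4 : ((dn lam 1 : ℝ) - a - ex lam 2) = ((dn lam 1 - a - ex mu 2 : ℕ) : ℝ) := by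
      rw [Nat.cast_sub (by omega), Nat.cast_sub (by omega), hex2]
    rw [h4, ← Nat.cast_pow, ← Nat.cast_pow, ← Nat.cast_mul] at h3
    exact Nat.cast_le.1 h3
  · rw [hdn 1]
    exact hw2
  · have h3 := hwq _ hwa
    rw [hdn 1]
    rw [← Nat.cast_pow, ← Nat.cast_pow, ← Nat.cast_mul] at h3
    exact Nat.cast_le.1 h3

/-- **The theorem at the diagonal, version W**, from the assembly, the four lower bounds and the
linear theorem. -/
theorem diagW_of (hA : AsmV) (hL : LBL) (hI : LBI) (hC : LBC) (hR' : LBR)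
    (hLin : H467.NT.LinS) : DiagW := by
  refine diag_gen 20000 13000 7
    (fun a b n X lam h1 h2 h3 h4 h5 h6 h7 h8 h9 h10 h11 h12 h13 h14 =>
    scanW hA hL hI hC hR' ⟨h1, h2, h3, h4, h5, h6, h9, h7, h8, ?_, h11, ?_, h13, h14⟩) hLin
  · obtain ⟨_, hX12⟩ := PL10.X_ge h8
    exact (Nat.mul_le_mul_left _ (Nat.pow_le_pow_right (by omega) (by norm_num))).trans h10
  · obtain ⟨_, hX12⟩ := PL10.X_ge h8
    exact (Nat.mul_le_mul_left _ (Nat.pow_le_pow_right (by omega) (by norm_num))).trans h12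

/-- The literal `DU.DiagV`. -/
theorem diagV_of (h : DiagW) : DU.DiagV := by
  obtain ⟨C, c, hC, h⟩ := h
  refine ⟨16 * C + 16, c + 14, by positivity, fun a b hab n lam h1 h2 h3 h4 => ?_⟩
  have hlog : 0 ≤ Real.log a := Real.log_natCast_nonneg a
  obtain ⟨L, hL⟩ : ∃ L : ℝ, L = 1 + Real.log a := ⟨_, rfl⟩
  rw [← hL] at h1 h2 h3 h4
  have hL1 : 1 ≤ L := by
    rw [hL]
    linarith
  have hw0 : (0 : ℝ) ≤ (dn lam 1 : ℝ) := Nat.cast_nonneg _
  have ha0 : (0 : ℝ) ≤ (a : ℝ) := Nat.cast_nonneg _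
  have hLc : 1 ≤ L ^ c := one_le_pow₀ hL1
  have hL14 : 1 ≤ L ^ 14 := one_le_pow₀ hL1
  have hL0 : 0 < L := by linarith
  obtain ⟨P, hP⟩ : ∃ P : ℝ, P = C * L ^ c := ⟨_, rfl⟩
  have hP0 : 0 < P := by
    rw [hP]
    positivity
  -- the old constant is smaller
  have hk : P * (dn lam 1 : ℝ) ≤ (16 * C + 16) * L ^ (c + 14) * (dn lam 1 : ℝ) := by
    apply mul_le_mul_of_nonneg_right _ hw0
    rw [hP, pow_add]
    calc C * L ^ c ≤ (16 * C + 16) * L ^ c := by
          apply mul_le_mul_of_nonneg_right _ (by positivity)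
          linarith
      _ ≤ (16 * C + 16) * (L ^ c * L ^ 14) := by
          apply mul_le_mul_of_nonneg_left _ (by positivity)
          exact le_mul_of_one_le_right (by positivity) hL14
  by_cases hz : plethMult a b n lam = 0
  · rw [hz]
    exact Nat.zero_le _
  obtain ⟨hanti, _, _⟩ := H530.zero_stmt a b n lam hz
  apply h a b hab n lam
  rw [← hL, ← hP]
  rcases h1 with h1 | h1
  · exact Or.inl h1
  right
  have hq : (0 : ℝ) ≤ a / L ^ 7 := by positivity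
  have h2a : 2 * a ≤ dn lam 1 := by
    have : ((2 * a : ℕ) : ℝ) ≤ dn lam 1 := by
      push_cast
      linarith
    exact_mod_cast this
  refine ⟨hk.trans h2, h2a, hk.trans h3, ?_⟩
  rcases h4 with h4 | h4
  swap
  · exact Or.inl (by omega)
  refine Or.inr ⟨hk.trans h4, ?_⟩
  -- `w - a - λ_3 ≥ w / 2 - a ≥ a / (2 L ^ 7)`
  have e1 := dn_succ lam 1
  have e2 : dn lam (1 + 1) = dn lam 2 := rfl
  have e3 : ex lam 2 ≤ ex lam 1 := exanti hanti (by norm_num)
  have e4 := ex_le_dn lam 2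
  have e5 : 2 * (ex lam 2 : ℝ) ≤ (dn lam 1 : ℝ) := by
    exact_mod_cast (by omega : 2 * ex lam 2 ≤ dn lam 1)
  have e6 : (a : ℝ) / L ^ 7 / 2 ≤ (dn lam 1 : ℝ) - a - ex lam 2 := by linarith
  have e7 : ((a : ℝ) / L ^ 7 / 2) ^ 2 ≤ ((dn lam 1 : ℝ) - a - ex lam 2) ^ 2 :=
    pow_le_pow_left₀ (by positivity) e6 2
  refine le_trans ?_ e7
  have e8 : ((a : ℝ) / L ^ 7 / 2) ^ 2 = (a : ℝ) ^ 2 / (4 * L ^ 14) := by
    field_simp
    ring
  rw [e8, le_div_iff₀ (by positivity)]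
  refine le_trans ?_ h3
  calc P * (dn lam 1 : ℝ) * (4 * L ^ 14) = 4 * C * L ^ (c + 14) * (dn lam 1 : ℝ) := by
        rw [hP, pow_add]
        ring
    _ ≤ (16 * C + 16) * L ^ (c + 14) * (dn lam 1 : ℝ) := by
        apply mul_le_mul_of_nonneg_right _ hw0
        apply mul_le_mul_of_nonneg_right _ (by positivity)
        linarith

end Vale.Agent.P181.DU.W924
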