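import Vale.Agent.P181.DU9.H924.W.Main

set_option autoImplicit false

/-!
# P181, DU: one sentence for all `a ≤ b`

From `DiagW`, the theorem for `w ≤ 2 a` (line TW) and the polylog theorem `PolyS`.
-/

namespace Vale.Agent.P181.DU.W924

open Vale.Agent.P181.T4 (ex low)
open Vale.Agent.P181.H280 (plethMult)
open Vale.Agent.P181.PL

/-- The theorem of line TW. -/
def TwiceS : Prop := ∀ (a b : ℕ), a ≤ b → ∀ (n : ℕ) (lam : Fin n → ℕ), dn lam 1 ≤ 2 * a →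
  (dn lam 1 < 2 * a ∨ a + 2 ≤ b) → plethMult a b n lam ≤ plethMult b a n lam

/-- The range of the cells below row one: `w ≤ b`, or `w ≤ 2 a`, or
`P w ≤ (w - a - λ_3) ^ 2`. -/
def Rng (P : ℝ) (a b : ℕ) {n : ℕ} (lam : Fin n → ℕ) : Prop :=
  dn lam 1 ≤ b ∨ dn lam 1 ≤ 2 * a ∨
    P * (dn lam 1 : ℝ) ≤ ((dn lam 1 : ℝ) - a - ex lam 2) ^ 2

/-- **(i)** `P w ≤ a min(a, b - a)`. -/
def UniA : Prop := ∃ (C : ℝ) (c : ℕ), 1 ≤ C ∧ ∀ a b : ℕ, a ≤ b →
  ∀ (n : ℕ) (lam : Fin n → ℕ), Rng (C * (1 + Real.log a) ^ c) a b lam →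
  C * (1 + Real.log a) ^ c * (dn lam 1 : ℝ) ≤ (a : ℝ) * ((b : ℝ) - a) →
  C * (1 + Real.log a) ^ c * (dn lam 1 : ℝ) ≤ (a : ℝ) ^ 2 →
  (C * (1 + Real.log a) ^ c * (dn lam 1 : ℝ) ≤ (dn lam 2 : ℝ) ^ 2 ∨ a + dn lam 2 ≤ b + 1) →
  plethMult a b n lam ≤ plethMult b a n lam

/-- **(ii)** `P w ≤ (b - a) ^ 2`. -/
def UniB : Prop := ∃ (C : ℝ) (c : ℕ), 1 ≤ C ∧ ∀ a b : ℕ, a ≤ b →
  ∀ (n : ℕ) (lam : Fin n → ℕ), Rng (C * (1 + Real.log a) ^ c) a b lam →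
  C * (1 + Real.log a) ^ c * (dn lam 1 : ℝ) ≤ ((b : ℝ) - a) ^ 2 →
  plethMult a b n lam ≤ plethMult b a n lam

/-- **(iii)** `2 a + √a polylog ≤ b`, `P w ≤ a ^ 2`. -/
def LinW : Prop := ∃ (C : ℝ) (c : ℕ), 1 ≤ C ∧ ∀ a b : ℕ, 2 * a ≤ b →
  C * (1 + Real.log a) ^ c * (a : ℝ) ≤ ((b : ℝ) - 2 * a) ^ 2 →
  ∀ (n : ℕ) (lam : Fin n → ℕ), C * (1 + Real.log a) ^ c * (dn lam 1 : ℝ) ≤ (a : ℝ) ^ 2 →
  plethMult a b n lam ≤ plethMult b a n lam

theorem uniA_of (hW : DiagW) (hT : TwiceS) : UniA := by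
  obtain ⟨C, c, hC, h⟩ := hW
  refine ⟨C + 1, c, by linarith, fun a b hab n lam h1 h2 h3 h4 => ?_⟩
  have hlog : 0 ≤ Real.log a := Real.log_natCast_nonneg a
  obtain ⟨L, hL⟩ : ∃ L : ℝ, L = 1 + Real.log a := ⟨_, rfl⟩
  rw [← hL] at h1 h2 h3 h4
  have hL1 : 1 ≤ L := by
    rw [hL]
    linarith
  have hLc : 1 ≤ L ^ c := one_le_pow₀ hL1
  have hw0 : (0 : ℝ) ≤ (dn lam 1 : ℝ) := Nat.cast_nonneg _
  have hk : C * L ^ c * (dn lam 1 : ℝ) ≤ (C + 1) * L ^ c * (dn lam 1 : ℝ) := by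
    apply mul_le_mul_of_nonneg_right _ hw0
    apply mul_le_mul_of_nonneg_right _ (by positivity)
    linarith
  rcases h1 with h1 | h1 | h1
  · exact h a b hab n lam (Or.inl h1)
  · rcases Nat.lt_or_ge (dn lam 1) (2 * a) with h5 | h5
    · exact hT a b hab n lam h1 (Or.inl h5)
    · -- `w = 2 a`
      rcases Nat.eq_zero_or_pos a with ha | ha
      · apply h a b hab n lam (Or.inl _)
        omega
      apply hT a b hab n lam h1 (Or.inr _)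
      have h6 : (2 : ℝ) * a ≤ dn lam 1 := by exact_mod_cast h5
      have ha' : (0 : ℝ) < a := by exact_mod_cast ha
      have h7 : (1 : ℝ) ≤ (C + 1) * L ^ c := one_le_mul_of_one_le_of_one_le (by linarith) hLc
      have h8 : (2 : ℝ) * a ≤ a * ((b : ℝ) - a) := by
        have := le_mul_of_one_le_left hw0 h7
        linarith
      have h9 : (2 : ℝ) ≤ (b : ℝ) - a := by
        apply le_of_mul_le_mul_left _ ha'
        linarith
      have h10 : ((a + 2 : ℕ) : ℝ) ≤ b := by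
        push_cast
        linarith
      exact_mod_cast h10
  · rcases Nat.lt_or_ge (dn lam 1) (2 * a) with h5 | h5
    · exact hT a b hab n lam h5.le (Or.inl h5)
    apply h a b hab n lam
    rw [← hL]
    refine Or.inr ⟨hk.trans h2, h5, hk.trans h3, ?_⟩
    rcases h4 with h4 | h4
    · exact Or.inr ⟨hk.trans h4, hk.trans h1⟩
    · exact Or.inl (by omega)

theorem uniB_of (hA : UniA) (hP : PolyS) : UniB := by
  obtain ⟨C1, c1, hC1, h1⟩ := hP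
  obtain ⟨C2, c2, hC2, h2⟩ := hA
  refine ⟨C2 * (1 + C1) ^ 2, c2 + 2 * c1, one_le_mul_of_one_le_of_one_le hC2
    (one_le_pow₀ (by linarith)), fun a b hab n lam hw h => ?_⟩
  have hL0 : 0 ≤ Real.log a := Real.log_natCast_nonneg a
  obtain ⟨L, hL⟩ : ∃ L : ℝ, L = 1 + Real.log a := ⟨_, rfl⟩
  rw [← hL] at h hw
  have hL1 : 1 ≤ L := by
    rw [hL]
    linarith
  have hw0 : (0 : ℝ) ≤ (dn lam 1 : ℝ) := Nat.cast_nonneg _
  have hLc : 1 ≤ L ^ (2 * c1) := one_le_pow₀ hL1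
  have hC12 : 1 ≤ (1 + C1) ^ 2 := one_le_pow₀ (by linarith)
  obtain ⟨T, hT⟩ : ∃ T : ℝ, T = C2 * L ^ c2 * (dn lam 1 : ℝ) := ⟨_, rfl⟩
  have hT0 : 0 ≤ T := by
    rw [hT]
    positivity
  have hTe : C2 * (1 + C1) ^ 2 * L ^ (c2 + 2 * c1) * (dn lam 1 : ℝ) =
      (1 + C1) ^ 2 * L ^ (2 * c1) * T := by
    rw [hT, pow_add]
    ring
  have h5 : 1 ≤ (1 + C1) ^ 2 * L ^ (2 * c1) := one_le_mul_of_one_le_of_one_le hC12 hLc
  have hTle : T ≤ (1 + C1) ^ 2 * L ^ (2 * c1) * T := le_mul_of_one_le_left hT0 h5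
  rw [hTe] at h
  have h4 : T ≤ ((b : ℝ) - a) ^ 2 := hTle.trans h
  have hab' : (a : ℝ) ≤ b := by exact_mod_cast hab
  have ha0 : (0 : ℝ) ≤ a := Nat.cast_nonneg _
  have hba : (0 : ℝ) ≤ (b : ℝ) - a := by linarith
  rcases le_or_gt T ((a : ℝ) ^ 2) with hTa | hTa
  · apply h2 a b hab n lam
    · rw [← hL]
      rcases hw with hw | hw | hw
      · exact Or.inl hw
      · exact Or.inr (Or.inl hw)
      · rw [hTe] at hw
        refine Or.inr (Or.inr ?_)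
        rw [← hT]
        exact hTle.trans hw
    · rw [← hL, ← hT]
      have h6 : T ^ 2 ≤ (a * ((b : ℝ) - a)) ^ 2 := by
        rw [mul_pow, sq]
        exact mul_le_mul hTa h4 hT0 (by positivity)
      exact (abs_le_of_sq_le_sq' h6 (by positivity)).2
    · rw [← hL, ← hT]
      exact hTa
    · rw [← hL, ← hT]
      rcases Nat.lt_or_ge (b + 1) (a + dn lam 2) with h6 | h6
      · left
        refine h4.trans (pow_le_pow_left₀ hba ?_ 2)
        have h7 : (b : ℝ) + 1 < a + dn lam 2 := by exact_mod_cast h6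
        linarith
      · exact Or.inr h6
  · apply h1 a b
    rw [← hL]
    have h5 : ((1 + C1) * L ^ c1 * a) ^ 2 ≤ ((b : ℝ) - a) ^ 2 := by
      calc ((1 + C1) * L ^ c1 * a) ^ 2 = (1 + C1) ^ 2 * L ^ (2 * c1) * (a : ℝ) ^ 2 := by
            rw [mul_pow, mul_pow, ← pow_mul, mul_comm c1 2]
        _ ≤ (1 + C1) ^ 2 * L ^ (2 * c1) * T := by
            apply mul_le_mul_of_nonneg_left hTa.le
            positivity
        _ ≤ _ := h
    have h6 : (1 + C1) * L ^ c1 * a ≤ (b : ℝ) - a := abs_le_of_sq_le_sq' h5 hba |>.2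
    have h8 : 0 ≤ L ^ c1 * (a : ℝ) := by positivity
    calc C1 * a * L ^ c1 ≤ (1 + C1) * L ^ c1 * a := by nlinarith
      _ ≤ (b : ℝ) - a := h6
      _ ≤ b := by linarith

theorem linW_of (hW : DiagW) : LinW := by
  obtain ⟨C, c, hC, h⟩ := hW
  refine ⟨16 * C + 1, c, by linarith, fun a b hab h1 n lam h2 => ?_⟩
  rcases Nat.lt_or_ge b (dn lam 1) with hwb | hwb
  swap
  · exact h a b (by omega) n lam (Or.inl hwb)
  have hlog : 0 ≤ Real.log a := Real.log_natCast_nonneg a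
  obtain ⟨L, hL⟩ : ∃ L : ℝ, L = 1 + Real.log a := ⟨_, rfl⟩
  rw [← hL] at h1 h2
  have hL1 : 1 ≤ L := by
    rw [hL]
    linarith
  have hLc : 1 ≤ L ^ c := one_le_pow₀ hL1
  have hw0 : (0 : ℝ) ≤ (dn lam 1 : ℝ) := Nat.cast_nonneg _
  obtain ⟨P, hP⟩ : ∃ P : ℝ, P = C * L ^ c := ⟨_, rfl⟩
  have hP0 : 0 < P := by
    rw [hP]
    positivity
  have hPe : 16 * P ≤ (16 * C + 1) * L ^ c := by
    rw [hP]
    nlinarith
  have ha0 : (0 : ℝ) ≤ a := Nat.cast_nonneg _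
  have hwb' : (b : ℝ) < dn lam 1 := by exact_mod_cast hwb
  have hab' : 2 * (a : ℝ) ≤ b := by exact_mod_cast hab
  have h3 : 16 * P * (dn lam 1 : ℝ) ≤ (a : ℝ) ^ 2 :=
    (mul_le_mul_of_nonneg_right hPe hw0).trans h2
  have h4 : 16 * P * (a : ℝ) ≤ ((b : ℝ) - 2 * a) ^ 2 :=
    (mul_le_mul_of_nonneg_right hPe ha0).trans h1
  have h5 : P * (dn lam 1 : ℝ) ≤ (a : ℝ) ^ 2 := by
    have : 0 ≤ P * (dn lam 1 : ℝ) := by positivity
    linarith
  by_cases hz : plethMult a b n lam = 0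
  · rw [hz]
    exact Nat.zero_le _
  obtain ⟨hanti, _, _⟩ := H530.zero_stmt a b n lam hz
  apply h a b (by omega) n lam
  rw [← hL, ← hP]
  refine Or.inr ⟨?_, by omega, h5, ?_⟩
  · refine h5.trans ?_
    rw [sq]
    apply mul_le_mul_of_nonneg_left _ ha0
    linarith
  rcases Nat.lt_or_ge (b + 1) (dn lam 2 + a) with h6 | h6
  swap
  · exact Or.inl h6
  refine Or.inr ⟨?_, ?_⟩
  · refine h5.trans (pow_le_pow_left₀ ha0 ?_ 2)
    have h7 : (b : ℝ) + 1 < dn lam 2 + a := by exact_mod_cast h6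
    linarith
  · have e1 := dn_succ lam 1
    have e2 : dn lam (1 + 1) = dn lam 2 := rfl
    have e3 : ex lam 2 ≤ ex lam 1 := exanti hanti (by norm_num)
    have e4 := ex_le_dn lam 2
    have e5 : 2 * (ex lam 2 : ℝ) ≤ (dn lam 1 : ℝ) := by
      exact_mod_cast (by omega : 2 * ex lam 2 ≤ dn lam 1)
    have e6 : ((dn lam 1 : ℝ) - 2 * a) / 2 ≤ (dn lam 1 : ℝ) - a - ex lam 2 := by linarith
    have e7 : 0 ≤ ((dn lam 1 : ℝ) - 2 * a) / 2 := by linarith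
    refine le_trans ?_ (pow_le_pow_left₀ e7 e6 2)
    have e8 : (((dn lam 1 : ℝ) - 2 * a) / 2) ^ 2 = ((dn lam 1 : ℝ) - 2 * a) ^ 2 / 4 := by ring
    rw [e8, le_div_iff₀ (by norm_num)]
    rcases le_or_gt (dn lam 1 : ℝ) (4 * a) with h8 | h8
    · calc P * (dn lam 1 : ℝ) * 4 ≤ P * (4 * a) * 4 := by
            apply mul_le_mul_of_nonneg_right _ (by norm_num)
            exact mul_le_mul_of_nonneg_left h8 hP0.le
        _ = 16 * P * a := by ring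
        _ ≤ ((b : ℝ) - 2 * a) ^ 2 := h4
        _ ≤ ((dn lam 1 : ℝ) - 2 * a) ^ 2 := pow_le_pow_left₀ (by linarith) (by linarith) 2
    · -- `w > 4 a`, `w ≥ 16 P`
      have h9 : (dn lam 1 : ℝ) / 2 ≤ (dn lam 1 : ℝ) - 2 * a := by linarith
      have h10 : ((dn lam 1 : ℝ) / 2) ^ 2 ≤ ((dn lam 1 : ℝ) - 2 * a) ^ 2 :=
        pow_le_pow_left₀ (by positivity) h9 2
      refine le_trans ?_ h10
      have hwpos : (0 : ℝ) < dn lam 1 := by linarith
      have h11 : 16 * P * (dn lam 1 : ℝ) ≤ (dn lam 1 : ℝ) * (dn lam 1 : ℝ) := by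
        refine h3.trans ?_
        rw [sq]
        exact mul_le_mul (by linarith) (by linarith) ha0 hw0
      have h12 : ((dn lam 1 : ℝ) / 2) ^ 2 = (dn lam 1 : ℝ) * (dn lam 1 : ℝ) / 4 := by ring
      rw [h12]
      linarith

end Vale.Agent.P181.DU.W924
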